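import Vale.Agent.Lib.P052.Data

/-!
Kernel checkable certificates about the 416 vertex graph whose adjacency matrix is packed in `M`.
-/

namespace Vale.Agent.Lib.P052

/-- Row `i` of the adjacency matrix as a bitmask. -/
def row (i : Nat) : Nat := Nat.mod (Nat.shiftRight M (Nat.mul 416 i)) (Nat.pow 2 416)

/-- The entry `(i,j)` of the adjacency matrix, as the natural number 0 or 1. -/
def bit (i j : Nat) : Nat := Nat.land (Nat.shiftRight (row i) j) 1

/-- Row `i` with entry `j` placed at the base 512 digit `j`; the argument `n` bounds `j`. -/
def pack (i : Nat) : Nat → Nat
  | 0 => 0
  | j + 1 => Nat.add (pack i j) (Nat.mul (bit i j) (Nat.pow 512 j))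

/-- The sum over `k < n` of entry `(i,k)` times the packed row `k`. -/
def sumRows (i : Nat) : Nat → Nat
  | 0 => 0
  | k + 1 => Nat.add (sumRows i k) (Nat.mul (bit i k) (pack k 416))

/-- The sum of the powers of 512 below `n`. -/
def unitSum : Nat → Nat
  | 0 => 0
  | j + 1 => Nat.add (unitSum j) (Nat.pow 512 j)

/-- Row `i` of the identity `A^2 = 16 A + 80 I + 20 J`, in packed form. -/
def srgRowOK (i : Nat) : Bool :=
  Nat.beq (sumRows i 416)
    (Nat.add (Nat.add (Nat.mul 16 (pack i 416)) (Nat.mul 80 (Nat.pow 512 i)))
      (Nat.mul 20 (unitSum 416)))

theorem srg_ok : (List.range 416).all srgRowOK = true := by decide +kernel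

/-- Symmetry and zero diagonal checks for row `i`. -/
def symRowOK (i : Nat) : Bool :=
  (List.range 416).all fun j => Nat.beq (bit i j) (bit j i)

theorem sym_ok : (List.range 416).all symRowOK = true := by decide +kernel

theorem diag_ok : (List.range 416).all (fun i => Nat.beq (bit i i) 0) = true := by decide +kernel

/-- The first eigenvector, supported on `k < 96`. -/
def f1 (k : Nat) : Int :=
  if k < 32 then 1 else if k < 48 then 0 else if k < 80 then -1 else 0

/-- The second eigenvector, supported on `k < 96`. -/
def f2 (k : Nat) : Int :=
  if k < 16 then 1 else if k < 32 then -1 else if k < 48 then -2 else if k < 64 then -1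
  else if k < 80 then 1 else if k < 96 then 2 else 0

/-- The sum over `k < n` of entry `(i,k)` times `g k`. -/
def sumF (g : Nat → Int) (i : Nat) : Nat → Int
  | 0 => 0
  | k + 1 => sumF g i k + Int.ofNat (bit i k) * g k

theorem f1_eig : (List.range 416).all (fun i => decide (sumF f1 i 96 = 20 * f1 i)) = true := by
  decide +kernel

theorem f2_eig : (List.range 416).all (fun i => decide (sumF f2 i 96 = 20 * f2 i)) = true := by
  decide +kernel

/-- A table for finding the index of a lowest set bit. -/
def hashT : Nat := 6249479914204836447829589179449961587819431733260580690066569397144293864137235539331451908209989256908517277653665201766062143508588956001504101379003677033523570645550090647227225335950173225510031051121006997168995779235159921260045995336941463630423434803638236960215411352486972264520747491686464417199061683334435425793924196300127231013209339288890744404487831509275750970824549147138402193626927150759977871353170755671969067883307723726636714723413523691262787450059653070109283082681463315779767324172652393737321417302926972761207785983721575052737438849699426800812410662156535976429094042044868686060939460407835215221035820625282530343639362120158609336134414596630027817696667318078708244825668966898782252041030739192207003165439831987582131509257437429752533109501392648907269358148860605912686976412336726579981916514086501761823066934817711895512181949237912389221371093102591044460741529355917618988999754671680264931473443650719277791489925381136102784116514761930833489867658808289629920817388555905266882742655650153046718884680750599743305722984068947509332860261626232381636504190096498231517589660254081384448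

/-- A guess at the index of a set bit of `n`; only its being below 416 matters for soundness. -/
def pick (n : Nat) : Nat :=
  Nat.mod (Nat.mod (Nat.shiftRight hashT (Nat.mul 9 (Nat.mod (Nat.land n (Nat.sub (Nat.pow 2 420) n)) 419))) 512) 416

/-- Clear bit `v` of `n`. -/
def clr (n v : Nat) : Nat := Nat.land n (Nat.sub (Nat.pow 2 420) (Nat.succ (Nat.pow 2 v)))

/-- Attach a hash to a natural number in its low bits (this keeps the evaluation fast). -/
def salt (x : Nat) : Nat := Nat.add (Nat.mul x 18446744073709551616) (Nat.mod x 2305843009213693951)

/-- Remove the hash. -/
def unsalt (x : Nat) : Nat := Nat.shiftRight x 64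

/-- `noK fuel d s = true` certifies that no `d` vertices among the bits of `unsalt s` are pairwise
adjacent, by branching on one vertex at a time. -/
def noK : Nat → Nat → Nat → Bool
  | 0, _, _ => false
  | fuel + 1, d, s =>
    match s with
    | 0 => true
    | c + 1 =>
      match d with
      | 0 => false
      | 1 => false
      | d' + 2 =>
        and
          (noK fuel (d' + 1)
            (salt (Nat.land (clr (unsalt (c + 1)) (pick (unsalt (c + 1))))
              (row (pick (unsalt (c + 1)))))))
          (noK fuel (d' + 2) (salt (clr (unsalt (c + 1)) (pick (unsalt (c + 1))))))

/-- The mask of the vertex set `95 ≤ k < 416`. -/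
def maskV : Nat := Nat.sub (Nat.pow 2 416) (Nat.pow 2 95)

/-- The top-level chain step of `noK`: remove the picked vertex. -/
def nextS (s : Nat) : Nat := salt (clr (unsalt s) (pick (unsalt s)))

/-- The residual vertex set after `k` top-level branchings of `noK`, salted. -/
def topS : Nat → Nat
  | 0 => salt maskV
  | k + 1 => nextS (topS k)

/-- The child where the picked vertex is taken into the clique. -/
def child (s : Nat) : Nat :=
  salt (Nat.land (clr (unsalt s) (pick (unsalt s))) (row (pick (unsalt s))))

/-- The branches `a ≤ i < a + n` of the top-level chain. -/
def chunkOK (a n : Nat) : Bool :=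
  (List.range' a n).all fun i => noK (419 - i) 5 (child (topS i))

theorem chunk0 : chunkOK 0 6 = true := by decide +kernel

theorem chunk1 : chunkOK 6 6 = true := by decide +kernel

theorem chunk2 : chunkOK 12 6 = true := by decide +kernel

theorem chunk3 : chunkOK 18 7 = true := by decide +kernel

theorem chunk4 : chunkOK 25 7 = true := by decide +kernel

theorem chunk5 : chunkOK 32 9 = true := by decide +kernel

theorem chunk6 : chunkOK 41 9 = true := by decide +kernel

theorem chunk7 : chunkOK 50 10 = true := by decide +kernel

theorem chunk8 : chunkOK 60 11 = true := by decide +kernel

theorem chunk9 : chunkOK 71 13 = true := by decide +kernel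

theorem chunk10 : chunkOK 84 15 = true := by decide +kernel

theorem chunk11 : chunkOK 99 21 = true := by decide +kernel

theorem chunk12 : chunkOK 120 30 = true := by decide +kernel

theorem chunk13 : chunkOK 150 81 = true := by decide +kernel

theorem chunk14 : chunkOK 231 90 = true := by decide +kernel

theorem topS_end : noK 99 6 (topS 321) = true := by decide +kernel

theorem noK_step (f s : Nat) (h1 : noK f 5 (child s) = true) (h2 : noK f 6 (nextS s) = true) :
    noK (f + 1) 6 s = true := by
  cases s with
  | zero => rfl
  | succ c =>
    simp only [noK]
    simp only [child, nextS] at h1 h2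
    simp only [h1, h2, Bool.and_self]

/-- All top-level branches. -/
theorem branch_all (i : Nat) (hi : i < 321) : noK (419 - i) 5 (child (topS i)) = true := by
  have key : ∀ a n, chunkOK a n = true → a ≤ i → i < a + n →
      noK (419 - i) 5 (child (topS i)) = true := by
    intro a n h h1 h2
    have := (List.all_eq_true.mp h) i (List.mem_range'_1.mpr ⟨h1, h2⟩)
    exact this
  by_cases h0 : i < 6
  · exact key 0 6 chunk0 (by omega) (by omega)
  by_cases h1 : i < 12
  · exact key 6 6 chunk1 (by omega) (by omega)
  by_cases h2 : i < 18
  · exact key 12 6 chunk2 (by omega) (by omega)
  by_cases h3 : i < 25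
  · exact key 18 7 chunk3 (by omega) (by omega)
  by_cases h4 : i < 32
  · exact key 25 7 chunk4 (by omega) (by omega)
  by_cases h5 : i < 41
  · exact key 32 9 chunk5 (by omega) (by omega)
  by_cases h6 : i < 50
  · exact key 41 9 chunk6 (by omega) (by omega)
  by_cases h7 : i < 60
  · exact key 50 10 chunk7 (by omega) (by omega)
  by_cases h8 : i < 71
  · exact key 60 11 chunk8 (by omega) (by omega)
  by_cases h9 : i < 84
  · exact key 71 13 chunk9 (by omega) (by omega)
  by_cases h10 : i < 99
  · exact key 84 15 chunk10 (by omega) (by omega)
  by_cases h11 : i < 120
  · exact key 99 21 chunk11 (by omega) (by omega)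
  by_cases h12 : i < 150
  · exact key 120 30 chunk12 (by omega) (by omega)
  by_cases h13 : i < 231
  · exact key 150 81 chunk13 (by omega) (by omega)
  by_cases h14 : i < 321
  · exact key 231 90 chunk14 (by omega) (by omega)
  omega

/-- Downward induction along the top-level chain. -/
theorem chain_aux : ∀ n i, i + n = 321 → noK (420 - i) 6 (topS i) = true := by
  intro n
  induction n with
  | zero =>
    intro i hi
    have : i = 321 := by omega
    subst this
    exact topS_end
  | succ n ih =>
    intro i hi
    have hi' : i < 321 := by omega
    have h2 : noK (419 - i) 6 (nextS (topS i)) = true := by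
      have := ih (i + 1) (by omega)
      have e : 420 - (i + 1) = 419 - i := by omega
      rw [e] at this
      exact this
    have e : 420 - i = (419 - i) + 1 := by omega
    rw [e]
    exact noK_step _ _ (branch_all i hi') h2

theorem noK_V : noK 420 6 (salt maskV) = true := chain_aux 321 0 rfl

end Vale.Agent.Lib.P052
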