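import Mathlib
import Vale.Agent.Lib.P052.Check

/-!
Soundness of the clique checker and of the packed strongly regular identity.
-/

open Finset

namespace Vale.Agent.Lib.P052

theorem unsalt_salt (x : ℕ) : unsalt (salt x) = x := by
  have h : x % 2305843009213693951 < 2305843009213693951 := Nat.mod_lt _ (by norm_num)
  show (x * 18446744073709551616 + x % 2305843009213693951) >>> 64 = x
  rw [Nat.shiftRight_eq_div_pow]
  norm_num
  omega

theorem pick_lt (n : ℕ) : pick n < 416 := Nat.mod_lt _ (by norm_num)

theorem testBit_clr (x v k : ℕ) (hv : v < 420) :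
    (clr x v).testBit k = (x.testBit k && (decide (k < 420) && !decide (v = k))) := by
  have h2 : 2 ^ v < 2 ^ 420 := Nat.pow_lt_pow_right (by norm_num) hv
  show (x &&& (2 ^ 420 - (2 ^ v + 1))).testBit k = _
  rw [Nat.testBit_and, Nat.testBit_two_pow_sub_succ h2, Nat.testBit_two_pow]

/-- No `d` vertices among the bits of `x` (below 416) are pairwise adjacent. -/
def NoClique (d x : ℕ) : Prop :=
  ∀ S : Finset ℕ, S.card = d → (∀ k ∈ S, k < 416 ∧ x.testBit k = true) →
    (∀ a ∈ S, ∀ b ∈ S, a ≠ b → (row a).testBit b = true) → False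

theorem noK_sound : ∀ fuel d s, noK fuel d s = true → d ≠ 0 → NoClique d (unsalt s) := by
  intro fuel
  induction fuel with
  | zero => intro d s h _; simp [noK] at h
  | succ fuel ih =>
    intro d s h hd
    cases s with
    | zero =>
      intro S hS hk _
      have : S.Nonempty := by
        rw [← Finset.card_pos, hS]; omega
      obtain ⟨k, hk'⟩ := this
      have := (hk k hk').2
      simp [unsalt] at this
    | succ c =>
      rcases d with _ | _ | d'
      · exact absurd rfl hd
      · simp [noK] at h
      · simp only [noK] at h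
        rw [Bool.and_eq_true] at h
        obtain ⟨h1, h2⟩ := h
        have ih1 := ih _ _ h1 (by omega)
        have ih2 := ih _ _ h2 (by omega)
        rw [unsalt_salt] at ih1 ih2
        set x := unsalt (c + 1) with hx
        set v := pick x with hv
        have hv416 : v < 416 := pick_lt x
        intro S hS hk hadj
        by_cases hvS : v ∈ S
        · -- branch containing v
          refine ih1 (S.erase v) ?_ ?_ ?_
          · rw [Finset.card_erase_of_mem hvS, hS]; omega
          · intro k hk'
            have hk1 := Finset.mem_of_mem_erase hk'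
            have hne : k ≠ v := Finset.ne_of_mem_erase hk'
            obtain ⟨hlt, hb⟩ := hk k hk1
            refine ⟨hlt, ?_⟩
            have hadjv := hadj v hvS k hk1 (Ne.symm hne)
            show ((clr x v) &&& (row v)).testBit k = true
            rw [Nat.testBit_and, testBit_clr _ _ _ (by omega), hb, hadjv]
            simp only [Bool.true_and, Bool.and_true, Bool.and_eq_true, decide_eq_true_eq,
              Bool.not_eq_true', decide_eq_false_iff_not]
            exact ⟨by omega, fun h => hne h.symm⟩
          · intro a ha b hb hab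
            exact hadj a (Finset.mem_of_mem_erase ha) b (Finset.mem_of_mem_erase hb) hab
        · -- branch without v
          refine ih2 S hS ?_ hadj
          intro k hk'
          obtain ⟨hlt, hb⟩ := hk k hk'
          refine ⟨hlt, ?_⟩
          rw [testBit_clr _ _ _ (by omega), hb]
          simp only [Bool.true_and, Bool.and_eq_true, decide_eq_true_eq,
            Bool.not_eq_true', decide_eq_false_iff_not]
          refine ⟨by omega, fun h => hvS (h ▸ hk')⟩

theorem noClique_V : NoClique 6 maskV := by
  have := noK_sound _ _ _ noK_V (by norm_num)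
  rwa [unsalt_salt] at this

theorem maskV_testBit : ∀ k, k < 416 → 95 ≤ k → maskV.testBit k = true := by
  have h : (List.range 416).all (fun k => (decide (95 ≤ k)) → maskV.testBit k) = true := by
    decide +kernel
  intro k hk h95
  have := List.all_eq_true.mp h k (List.mem_range.mpr hk)
  simpa [h95] using this

theorem bit_le_one (i j : ℕ) : bit i j ≤ 1 := by
  show ((row i) >>> j) &&& 1 ≤ 1
  rw [Nat.and_one_is_mod]
  have := Nat.mod_lt ((row i) >>> j) (by norm_num : 2 > 0)
  omega

theorem bit_eq_one_iff (i j : ℕ) : bit i j = 1 ↔ (row i).testBit j = true := by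
  show ((row i) >>> j) &&& 1 = 1 ↔ _
  rw [Nat.and_one_is_mod, Nat.testBit_eq_decide_div_mod_eq, Nat.shiftRight_eq_div_pow]
  simp

theorem pack_eq (i n : ℕ) : pack i n = ∑ j ∈ range n, bit i j * 512 ^ j := by
  induction n with
  | zero => rfl
  | succ n ih =>
    rw [sum_range_succ, ← ih]
    rfl

theorem sumRows_eq (i n : ℕ) : sumRows i n = ∑ k ∈ range n, bit i k * pack k 416 := by
  induction n with
  | zero => rfl
  | succ n ih =>
    rw [sum_range_succ, ← ih]
    rfl

theorem unitSum_eq (n : ℕ) : unitSum n = ∑ j ∈ range n, 512 ^ j := by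
  induction n with
  | zero => rfl
  | succ n ih =>
    rw [sum_range_succ, ← ih]
    rfl

theorem sum_digits_lt (y : ℕ) (f : ℕ → ℕ) (n : ℕ) (hf : ∀ j < n, f j < y) :
    ∑ j ∈ range n, f j * y ^ j < y ^ n := by
  induction n with
  | zero => simp
  | succ n ih =>
    rw [sum_range_succ, pow_succ]
    have h1 := ih (fun j hj => hf j (by omega))
    have h2 := hf n (by omega)
    have h3 : (f n + 1) * y ^ n ≤ y * y ^ n := Nat.mul_le_mul_right _ h2
    nlinarith

theorem digits_unique (y : ℕ) (hy : 0 < y) (f g : ℕ → ℕ) (n : ℕ) (hf : ∀ j < n, f j < y)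
    (hg : ∀ j < n, g j < y)
    (h : ∑ j ∈ range n, f j * y ^ j = ∑ j ∈ range n, g j * y ^ j) : ∀ j < n, f j = g j := by
  induction n with
  | zero => intro j hj; omega
  | succ n ih =>
    rw [sum_range_succ, sum_range_succ] at h
    have h1 := sum_digits_lt y f n (fun j hj => hf j (by omega))
    have h2 := sum_digits_lt y g n (fun j hj => hg j (by omega))
    have hpow : 0 < y ^ n := Nat.pow_pos hy
    have htop : f n = g n := by
      have e1 : (∑ j ∈ range n, f j * y ^ j + f n * y ^ n) / y ^ n = f n := by
        rw [Nat.add_mul_div_right _ _ hpow, Nat.div_eq_of_lt h1, zero_add]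
      have e2 : (∑ j ∈ range n, g j * y ^ j + g n * y ^ n) / y ^ n = g n := by
        rw [Nat.add_mul_div_right _ _ hpow, Nat.div_eq_of_lt h2, zero_add]
      rw [← e1, ← e2, h]
    have hrest : ∑ j ∈ range n, f j * y ^ j = ∑ j ∈ range n, g j * y ^ j := by
      rw [htop] at h
      omega
    intro j hj
    by_cases hjn : j = n
    · rw [hjn]; exact htop
    · exact ih (fun j hj => hf j (by omega)) (fun j hj => hg j (by omega)) hrest j (by omega)

theorem srg_general (N : ℕ) (hN : N < 512) (b : ℕ → ℕ → ℕ) (hb : ∀ i j, b i j ≤ 1) (i j : ℕ)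
    (hi : i < N) (hj : j < N)
    (h : ∑ k ∈ range N, b i k * ∑ j ∈ range N, b k j * 512 ^ j =
      16 * ∑ j ∈ range N, b i j * 512 ^ j + 80 * 512 ^ i + 20 * ∑ j ∈ range N, 512 ^ j) :
    ∑ k ∈ range N, b i k * b k j = 16 * b i j + (if i = j then 80 else 0) + 20 := by
  have hL : ∑ k ∈ range N, b i k * ∑ j ∈ range N, b k j * 512 ^ j =
      ∑ j ∈ range N, (∑ k ∈ range N, b i k * b k j) * 512 ^ j := by
    simp only [mul_sum, sum_mul]
    rw [sum_comm]
    refine sum_congr rfl fun a _ => sum_congr rfl fun c _ => ?_
    ring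
  have hR : 16 * ∑ j ∈ range N, b i j * 512 ^ j + 80 * 512 ^ i + 20 * ∑ j ∈ range N, 512 ^ j =
      ∑ j ∈ range N, (16 * b i j + (if i = j then 80 else 0) + 20) * 512 ^ j := by
    simp only [add_mul, sum_add_distrib, mul_sum, ite_mul, zero_mul, mul_assoc]
    congr 2
    rw [Finset.sum_ite_eq]
    simp [hi]
  rw [hL, hR] at h
  refine digits_unique 512 (by norm_num) _ _ N ?_ ?_ h j hj
  · intro j _
    calc ∑ k ∈ range N, b i k * b k j ≤ ∑ k ∈ range N, 1 := by
          refine sum_le_sum fun k _ => ?_
          have h1 := hb i k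
          have h2 := hb k j
          nlinarith
      _ = N := by simp
      _ < 512 := hN
  · intro j _
    have h1 := hb i j
    split_ifs <;> omega

theorem natAddMul (a b c d : ℕ) (h : a = Nat.add (Nat.add (Nat.mul 16 b) (Nat.mul 80 c)) (Nat.mul 20 d)) :
    a = 16 * b + 80 * c + 20 * d := h

/-- The strongly regular identity, entrywise in the natural numbers. -/
theorem srg_entry (i j : ℕ) (hi : i < 416) (hj : j < 416) :
    ∑ k ∈ range 416, bit i k * bit k j = 16 * bit i j + (if i = j then 80 else 0) + 20 := by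
  have h0 : srgRowOK i = true := List.all_eq_true.mp srg_ok i (List.mem_range.mpr hi)
  have h1 := natAddMul _ _ _ _ (Nat.eq_of_beq_eq_true h0)
  rw [sumRows_eq, pack_eq, unitSum_eq] at h1
  simp only [pack_eq] at h1
  exact srg_general 416 (by norm_num) bit bit_le_one i j hi hj h1

theorem bit_symm (i j : ℕ) (hi : i < 416) (hj : j < 416) : bit i j = bit j i := by
  have h0 : symRowOK i = true := List.all_eq_true.mp sym_ok i (List.mem_range.mpr hi)
  have h1 := List.all_eq_true.mp h0 j (List.mem_range.mpr hj)
  exact Nat.eq_of_beq_eq_true h1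

theorem bit_diag (i : ℕ) (hi : i < 416) : bit i i = 0 := by
  have h1 := List.all_eq_true.mp diag_ok i (List.mem_range.mpr hi)
  exact Nat.eq_of_beq_eq_true h1

theorem bit_weight (i : ℕ) (hi : i < 416) : ∑ k ∈ range 416, bit i k = 100 := by
  have h := srg_entry i i hi hi
  rw [bit_diag i hi] at h
  simp only [mul_zero, if_true, zero_add] at h
  rw [← show (80 + 20 : ℕ) = 100 by norm_num, ← h]
  refine sum_congr rfl fun k hk => ?_
  have hk' := mem_range.mp hk
  rw [bit_symm k i hk' hi]
  have := bit_le_one i k
  interval_cases (bit i k) <;> rfl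

theorem sumF_eq (g : ℕ → ℤ) (i n : ℕ) :
    sumF g i n = ∑ k ∈ range n, (bit i k : ℤ) * g k := by
  induction n with
  | zero => rfl
  | succ n ih =>
    rw [sum_range_succ, ← ih]
    rfl

theorem f1_zero (k : ℕ) (hk : 96 ≤ k) : f1 k = 0 := by
  unfold f1
  rw [if_neg (by omega), if_neg (by omega), if_neg (by omega)]

theorem f2_zero (k : ℕ) (hk : 96 ≤ k) : f2 k = 0 := by
  unfold f2
  rw [if_neg (by omega), if_neg (by omega), if_neg (by omega), if_neg (by omega), if_neg (by omega),
    if_neg (by omega)]

theorem sum_range_416_of_zero (g : ℕ → ℤ) (hg : ∀ k, 96 ≤ k → g k = 0) :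
    ∑ k ∈ range 416, g k = ∑ k ∈ range 96, g k := by
  symm
  refine sum_subset (fun x hx => ?_) (fun x _ hx => ?_)
  · simp only [mem_range] at *; omega
  · exact hg x (by simpa using hx)

theorem f1_eig' (i : ℕ) (hi : i < 416) : ∑ k ∈ range 416, (bit i k : ℤ) * f1 k = 20 * f1 i := by
  have h := List.all_eq_true.mp f1_eig i (List.mem_range.mpr hi)
  have h' : sumF f1 i 96 = 20 * f1 i := by simpa using h
  rw [sum_range_416_of_zero _ (fun k hk => by rw [f1_zero k hk, mul_zero]), ← sumF_eq, h']

theorem f2_eig' (i : ℕ) (hi : i < 416) : ∑ k ∈ range 416, (bit i k : ℤ) * f2 k = 20 * f2 i := by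
  have h := List.all_eq_true.mp f2_eig i (List.mem_range.mpr hi)
  have h' : sumF f2 i 96 = 20 * f2 i := by simpa using h
  rw [sum_range_416_of_zero _ (fun k hk => by rw [f2_zero k hk, mul_zero]), ← sumF_eq, h']

theorem f1_sum : ∑ k ∈ range 416, f1 k = 0 := by
  rw [sum_range_416_of_zero _ f1_zero]; decide +kernel

theorem f2_sum : ∑ k ∈ range 416, f2 k = 0 := by
  rw [sum_range_416_of_zero _ f2_zero]; decide +kernel

theorem f11_sum : ∑ k ∈ range 416, f1 k * f1 k = 64 := by
  rw [sum_range_416_of_zero _ (fun k hk => by rw [f1_zero k hk, mul_zero])]; decide +kernel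

theorem f22_sum : ∑ k ∈ range 416, f2 k * f2 k = 192 := by
  rw [sum_range_416_of_zero _ (fun k hk => by rw [f2_zero k hk, mul_zero])]; decide +kernel

theorem f12_sum : ∑ k ∈ range 416, f1 k * f2 k = 0 := by
  rw [sum_range_416_of_zero _ (fun k hk => by rw [f1_zero k hk, zero_mul])]; decide +kernel

end Vale.Agent.Lib.P052
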