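import Mathlib
import Vale.Agent.Lib.P052.Sound

open Finset Matrix

namespace Vale.Agent.Lib.P052

abbrev Ix := Fin 416

noncomputable section

/-- Real adjacency matrix. -/
def A : Matrix Ix Ix ℝ := Matrix.of fun i j => (bit i j : ℝ)

/-- All ones matrix. -/
def J : Matrix Ix Ix ℝ := Matrix.of fun _ _ => 1

/-- The eigenvectors as real vectors. -/
def F1 : Ix → ℝ := fun k => (f1 k : ℝ)
def F2 : Ix → ℝ := fun k => (f2 k : ℝ)

theorem sum_fin (g : ℕ → ℝ) : ∑ k : Ix, g k = ∑ k ∈ range 416, g k :=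
  Fin.sum_univ_eq_sum_range g 416

theorem A_apply (i j : Ix) : A i j = (bit i j : ℝ) := rfl

theorem A_symm : Aᵀ = A := by
  ext i j
  simp only [transpose_apply, A_apply]
  rw [bit_symm j i j.2 i.2]

theorem A_mul_A : A * A = (16 : ℝ) • A + (80 : ℝ) • (1 : Matrix Ix Ix ℝ) + (20 : ℝ) • J := by
  ext i j
  rw [mul_apply]
  simp only [A_apply, Matrix.add_apply, Matrix.smul_apply, smul_eq_mul, J, of_apply]
  have h := srg_entry i j i.2 j.2
  have h2 : ∑ k : Ix, (bit i k : ℝ) * (bit k j : ℝ) = ∑ k ∈ range 416, (bit i k : ℝ) * (bit k j : ℝ) :=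
    sum_fin (fun k => (bit i k : ℝ) * (bit k j : ℝ))
  rw [h2]
  have h3 := congrArg (fun x : ℕ => (x : ℝ)) h
  simp only [Nat.cast_sum, Nat.cast_mul, Nat.cast_add, Nat.cast_ofNat] at h3
  rw [h3]
  by_cases hij : i = j
  · subst hij; simp [A_apply]
  · have hv : (i : ℕ) ≠ j := fun h => hij (Fin.ext h)
    simp [hij, hv, A_apply]

theorem A_row_sum (i : Ix) : ∑ k : Ix, A i k = 100 := by
  simp only [A_apply]
  rw [sum_fin (fun k => (bit i k : ℝ))]
  exact_mod_cast bit_weight i i.2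

theorem A_mul_J : A * J = (100 : ℝ) • J := by
  ext i j
  rw [mul_apply]
  simp only [J, of_apply, mul_one, Matrix.smul_apply, smul_eq_mul, A_row_sum]

theorem J_mul_A : J * A = (100 : ℝ) • J := by
  have h := congrArg transpose A_mul_J
  rw [transpose_mul, A_symm] at h
  have hJ : Jᵀ = J := by ext i j; rfl
  rw [hJ, transpose_smul, hJ] at h
  exact h

theorem J_mul_J : J * J = (416 : ℝ) • J := by
  ext i j
  rw [mul_apply]
  simp [J]

theorem A_mulVec_F1 : A *ᵥ F1 = (20 : ℝ) • F1 := by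
  ext i
  simp only [mulVec, dotProduct, A_apply, F1, Pi.smul_apply, smul_eq_mul]
  rw [sum_fin (fun k => (bit i k : ℝ) * (f1 k : ℝ))]
  exact_mod_cast f1_eig' i i.2

theorem A_mulVec_F2 : A *ᵥ F2 = (20 : ℝ) • F2 := by
  ext i
  simp only [mulVec, dotProduct, A_apply, F2, Pi.smul_apply, smul_eq_mul]
  rw [sum_fin (fun k => (bit i k : ℝ) * (f2 k : ℝ))]
  exact_mod_cast f2_eig' i i.2

theorem F1_sum : ∑ k, F1 k = 0 := by
  simp only [F1]
  rw [sum_fin (fun k => (f1 k : ℝ))]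
  exact_mod_cast f1_sum

theorem F2_sum : ∑ k, F2 k = 0 := by
  simp only [F2]
  rw [sum_fin (fun k => (f2 k : ℝ))]
  exact_mod_cast f2_sum

theorem F11 : F1 ⬝ᵥ F1 = 64 := by
  simp only [dotProduct, F1]
  rw [sum_fin (fun k => (f1 k : ℝ) * (f1 k : ℝ))]
  exact_mod_cast f11_sum

theorem F22 : F2 ⬝ᵥ F2 = 192 := by
  simp only [dotProduct, F2]
  rw [sum_fin (fun k => (f2 k : ℝ) * (f2 k : ℝ))]
  exact_mod_cast f22_sum

theorem F12 : F1 ⬝ᵥ F2 = 0 := by
  simp only [dotProduct, F1, F2]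
  rw [sum_fin (fun k => (f1 k : ℝ) * (f2 k : ℝ))]
  exact_mod_cast f12_sum

theorem F21 : F2 ⬝ᵥ F1 = 0 := by rw [dotProduct_comm, F12]


/-- The projector `E` onto the 65 dimensional eigenspace. -/
def E : Matrix Ix Ix ℝ := (1 / 24 : ℝ) • A + (1 / 6 : ℝ) • (1 : Matrix Ix Ix ℝ) - (1 / 96 : ℝ) • J

/-- The rank one projector along `F1`. -/
def Q1 : Matrix Ix Ix ℝ := (1 / 64 : ℝ) • vecMulVec F1 F1

/-- The rank one projector along `F2`. -/
def Q2 : Matrix Ix Ix ℝ := (1 / 192 : ℝ) • vecMulVec F2 F2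

/-- The projector `P = E - Q1 - Q2`, of trace 63. -/
def P : Matrix Ix Ix ℝ := E - Q1 - Q2

theorem E_mul_E : E * E = E := by
  unfold E
  simp only [mul_sub, sub_mul, mul_add, add_mul, smul_mul_assoc, mul_smul_comm, mul_one, one_mul,
    A_mul_A, A_mul_J, J_mul_A, J_mul_J, smul_add, smul_sub, smul_smul]
  ext i j
  simp only [Matrix.add_apply, Matrix.sub_apply, Matrix.smul_apply, smul_eq_mul]
  ring

theorem vecMulVec_mul_self (x y : Ix → ℝ) (c : ℝ) (h : x ⬝ᵥ y = c) :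
    vecMulVec y x * vecMulVec y x = c • vecMulVec y x := by
  ext i j
  simp only [mul_apply, vecMulVec_apply, Matrix.smul_apply, smul_eq_mul]
  have : ∀ k, y i * x k * (y k * x j) = y i * x j * (x k * y k) := fun k => by ring
  simp only [this, ← Finset.mul_sum]
  have h' : ∑ k, x k * y k = c := h
  rw [h']
  ring

theorem Q1_mul_Q1 : Q1 * Q1 = Q1 := by
  unfold Q1
  rw [smul_mul_assoc, mul_smul_comm, vecMulVec_mul_self F1 F1 64 F11, smul_smul, smul_smul]
  norm_num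

theorem Q2_mul_Q2 : Q2 * Q2 = Q2 := by
  unfold Q2
  rw [smul_mul_assoc, mul_smul_comm, vecMulVec_mul_self F2 F2 192 F22, smul_smul, smul_smul]
  norm_num

theorem vecMulVec_mul_other (x y : Ix → ℝ) (h : x ⬝ᵥ y = 0) :
    vecMulVec x x * vecMulVec y y = 0 := by
  ext i j
  simp only [mul_apply, vecMulVec_apply, Matrix.zero_apply]
  have : ∀ k, x i * x k * (y k * y j) = x i * y j * (x k * y k) := fun k => by ring
  simp only [this, ← Finset.mul_sum]
  have h' : ∑ k, x k * y k = 0 := h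
  rw [h']
  ring

theorem Q1_mul_Q2 : Q1 * Q2 = 0 := by
  unfold Q1 Q2
  rw [smul_mul_assoc, mul_smul_comm, vecMulVec_mul_other F1 F2 F12]
  simp

theorem Q2_mul_Q1 : Q2 * Q1 = 0 := by
  unfold Q1 Q2
  rw [smul_mul_assoc, mul_smul_comm, vecMulVec_mul_other F2 F1 F21]
  simp

theorem A_mul_vecMulVec (x : Ix → ℝ) (hx : A *ᵥ x = (20 : ℝ) • x) :
    A * vecMulVec x x = (20 : ℝ) • vecMulVec x x := by
  ext i j
  have hi := congrFun hx i
  simp only [mulVec, dotProduct, Pi.smul_apply, smul_eq_mul] at hi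
  simp only [mul_apply, vecMulVec_apply, Matrix.smul_apply, smul_eq_mul]
  have : ∀ k, A i k * (x k * x j) = (A i k * x k) * x j := fun k => by ring
  simp only [this, ← Finset.sum_mul, hi]
  ring

theorem vecMulVec_mul_A (x : Ix → ℝ) (hx : A *ᵥ x = (20 : ℝ) • x) :
    vecMulVec x x * A = (20 : ℝ) • vecMulVec x x := by
  have h := congrArg transpose (A_mul_vecMulVec x hx)
  rw [transpose_mul, A_symm, transpose_smul, transpose_vecMulVec] at h
  exact h

theorem J_mul_vecMulVec (x : Ix → ℝ) (hx : ∑ k, x k = 0) : J * vecMulVec x x = 0 := by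
  ext i j
  simp only [mul_apply, vecMulVec_apply, J, of_apply, one_mul, Matrix.zero_apply]
  rw [← Finset.sum_mul, hx, zero_mul]

theorem vecMulVec_mul_J (x : Ix → ℝ) (hx : ∑ k, x k = 0) : vecMulVec x x * J = 0 := by
  ext i j
  simp only [mul_apply, vecMulVec_apply, J, of_apply, mul_one, Matrix.zero_apply]
  rw [← Finset.mul_sum, hx, mul_zero]

theorem E_mul_vv (x : Ix → ℝ) (hx : A *ᵥ x = (20 : ℝ) • x) (hs : ∑ k, x k = 0) :
    E * vecMulVec x x = vecMulVec x x := by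
  unfold E
  simp only [sub_mul, add_mul, smul_mul_assoc, one_mul, A_mul_vecMulVec x hx, J_mul_vecMulVec x hs,
    smul_smul, smul_zero, sub_zero, ← add_smul]
  norm_num

theorem vv_mul_E (x : Ix → ℝ) (hx : A *ᵥ x = (20 : ℝ) • x) (hs : ∑ k, x k = 0) :
    vecMulVec x x * E = vecMulVec x x := by
  unfold E
  simp only [mul_sub, mul_add, mul_smul_comm, mul_one, vecMulVec_mul_A x hx, vecMulVec_mul_J x hs,
    smul_smul, smul_zero, sub_zero, ← add_smul]
  norm_num

theorem E_mul_Q1 : E * Q1 = Q1 := by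
  unfold Q1; rw [mul_smul_comm, E_mul_vv F1 A_mulVec_F1 F1_sum]

theorem Q1_mul_E : Q1 * E = Q1 := by
  unfold Q1; rw [smul_mul_assoc, vv_mul_E F1 A_mulVec_F1 F1_sum]

theorem E_mul_Q2 : E * Q2 = Q2 := by
  unfold Q2; rw [mul_smul_comm, E_mul_vv F2 A_mulVec_F2 F2_sum]

theorem Q2_mul_E : Q2 * E = Q2 := by
  unfold Q2; rw [smul_mul_assoc, vv_mul_E F2 A_mulVec_F2 F2_sum]

theorem P_mul_P : P * P = P := by
  unfold P
  simp only [mul_sub, sub_mul, E_mul_E, E_mul_Q1, E_mul_Q2, Q1_mul_E, Q2_mul_E, Q1_mul_Q1, Q2_mul_Q2,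
    Q1_mul_Q2, Q2_mul_Q1]
  abel

theorem P_symm : Pᵀ = P := by
  unfold P E Q1 Q2
  have hJ : Jᵀ = J := by ext i j; rfl
  simp only [transpose_sub, transpose_add, transpose_smul, transpose_one, A_symm, hJ,
    transpose_vecMulVec]

theorem trace_A : trace A = 0 := by
  simp only [trace, Matrix.diag, A_apply]
  refine Finset.sum_eq_zero fun i _ => ?_
  rw [bit_diag i i.2]; simp

theorem trace_J : trace J = 416 := by
  simp [trace, Matrix.diag, J]

theorem trace_P : trace P = 63 := by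
  unfold P E Q1 Q2
  simp only [trace_sub, trace_add, trace_smul, trace_A, trace_one, trace_J, trace_vecMulVec, F11, F22,
    smul_eq_mul, Fintype.card_fin]
  norm_num

end

end Vale.Agent.Lib.P052
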