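import Mathlib
import Vale.Agent.Lib.P052.Proj

/-!
The geometric part: the columns of the projector `P` span a space of dimension 63, and the vertices
`95 ≤ k < 416` give a finite set of `R^63` that cannot be split into 64 parts of smaller diameter.
-/

open Finset Matrix

namespace Vale.Agent.Lib.P052

noncomputable section

/-- The columns of `P` as vectors of Euclidean space. -/
def v (a : Ix) : EuclideanSpace ℝ Ix := WithLp.toLp 2 (fun k => P k a)

theorem P_symm' (a b : Ix) : P a b = P b a := by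
  have := congrFun (congrFun P_symm a) b
  simpa using this.symm

theorem inner_v (a b : Ix) : inner ℝ (v a) (v b) = P a b := by
  have h := congrFun (congrFun P_mul_P a) b
  rw [mul_apply] at h
  rw [← h, PiLp.inner_apply]
  refine Finset.sum_congr rfl fun k _ => ?_
  simp only [v, RCLike.inner_apply, conj_trivial]
  rw [P_symm' k b, P_symm' a k, mul_comm]

theorem rank_P : P.rank = 63 := by
  set T : (Ix → ℝ) →ₗ[ℝ] (Ix → ℝ) := P.mulVecLin with hT
  have hid : IsIdempotentElem T := by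
    show T * T = T
    rw [hT, Module.End.mul_eq_comp, ← Matrix.mulVecLin_mul, P_mul_P]
  have h1 := (LinearMap.IsIdempotentElem.isProj_range T hid).trace
  have h2 : LinearMap.trace ℝ (Ix → ℝ) T = trace P := by
    rw [LinearMap.trace_eq_matrix_trace ℝ (Pi.basisFun ℝ Ix) T, LinearMap.toMatrix_eq_toMatrix', hT,
      ← Matrix.toLin'_apply', LinearMap.toMatrix'_toLin']
  rw [h2, trace_P] at h1
  have h3 : ((Module.finrank ℝ (LinearMap.range T) : ℕ) : ℝ) = ((63 : ℕ) : ℝ) := by
    rw [← h1]; norm_num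
  have h4 : Module.finrank ℝ (LinearMap.range T) = 63 := by exact_mod_cast h3
  exact h4

/-- The span of the columns. -/
def W : Submodule ℝ (EuclideanSpace ℝ Ix) := Submodule.span ℝ (Set.range v)

theorem finrank_W : Module.finrank ℝ W = 63 := by
  have h := Matrix.rank_eq_finrank_span_cols P
  rw [rank_P] at h
  have hmap : W = (Submodule.span ℝ (Set.range P.col)).map
      ((WithLp.linearEquiv 2 ℝ (Ix → ℝ)).symm : (Ix → ℝ) →ₗ[ℝ] EuclideanSpace ℝ Ix) := by
    rw [W, Submodule.map_span]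
    congr 1
    ext x
    simp only [Set.mem_range, Set.mem_image, exists_exists_eq_and]
    rfl
  rw [hmap, LinearEquiv.finrank_map_eq]
  exact h.symm

/-- An isometry from `W` to `R^63`. -/
def isoW : W ≃ₗᵢ[ℝ] EuclideanSpace ℝ (Fin 63) :=
  ((stdOrthonormalBasis ℝ W).reindex (finCongr finrank_W)).repr

/-- The rescaling factor for the extra point. -/
def t : ℝ := (-1 + Real.sqrt 222) / 13

theorem t_pos : 0 < t := by
  unfold t
  have : (1 : ℝ) < Real.sqrt 222 := by
    rw [show (1 : ℝ) = Real.sqrt 1 by simp]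
    exact Real.sqrt_lt_sqrt (by norm_num) (by norm_num)
  linarith

theorem t_eq : 13 * t ^ 2 + 2 * t = 17 := by
  unfold t
  have h := Real.sq_sqrt (show (0 : ℝ) ≤ 222 by norm_num)
  nlinarith

/-- The scale of each vertex. -/
def s (a : Ix) : ℝ := if (a : ℕ) = 95 then t else 1

theorem s_pos (a : Ix) : 0 < s a := by
  unfold s; split_ifs
  · exact t_pos
  · norm_num

/-- The points of `W`. -/
def ψ (a : Ix) : W := ⟨s a • v a, W.smul_mem _ (Submodule.subset_span ⟨a, rfl⟩)⟩

/-- The points of `R^63`. -/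
def φ (a : Ix) : EuclideanSpace ℝ (Fin 63) := isoW (ψ a)

theorem dist_φ_sq (a b : Ix) :
    dist (φ a) (φ b) ^ 2 = s a ^ 2 * P a a + s b ^ 2 * P b b - 2 * (s a * s b) * P a b := by
  have h1 : dist (φ a) (φ b) = ‖s a • v a - s b • v b‖ := by
    unfold φ
    rw [LinearIsometryEquiv.dist_map, dist_eq_norm]
    rfl
  rw [h1, norm_sub_sq_real, ← real_inner_self_eq_norm_sq (s a • v a),
    ← real_inner_self_eq_norm_sq (s b • v b)]
  simp only [real_inner_smul_left, real_inner_smul_right, inner_v]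
  ring

theorem P_apply (a b : Ix) :
    P a b = (bit a b : ℝ) / 24 + (if a = b then 1 / 6 else 0) - 1 / 96 - F1 a * F1 b / 64
      - F2 a * F2 b / 192 := by
  simp only [P, E, Q1, Q2, Matrix.sub_apply, Matrix.add_apply, Matrix.smul_apply, smul_eq_mul,
    vecMulVec_apply, A_apply, J, of_apply, one_apply]
  split_ifs <;> ring

theorem F1_V (a : Ix) (h : 95 ≤ (a : ℕ)) : F1 a = 0 := by
  have : f1 a = 0 := by
    unfold f1
    rw [if_neg (by omega), if_neg (by omega), if_neg (by omega)]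
  simp [F1, this]

theorem F2_V (a : Ix) (h : 96 ≤ (a : ℕ)) : F2 a = 0 := by
  simp [F2, f2_zero a h]

theorem F2_95 (a : Ix) (h : (a : ℕ) = 95) : F2 a = 2 := by
  have : f2 a = 2 := by
    rw [h]; rfl
  simp [F2, this]

theorem diag_term (a : Ix) (h : 95 ≤ (a : ℕ)) : s a ^ 2 * P a a = (17 - 2 * s a) / 96 := by
  rw [P_apply, bit_diag a a.2, F1_V a h]
  by_cases h95 : (a : ℕ) = 95
  · rw [F2_95 a h95]
    have : s a = t := by simp [s, h95]
    rw [this]
    have := t_eq
    simp only [Nat.cast_zero, if_true]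
    nlinarith
  · rw [F2_V a (by omega)]
    have : s a = 1 := by simp [s, h95]
    rw [this]
    norm_num

theorem offdiag_term (a b : Ix) (ha : 95 ≤ (a : ℕ)) (hb : 95 ≤ (b : ℕ)) (hab : a ≠ b) :
    P a b = (4 * (bit a b : ℝ) - 1) / 96 := by
  rw [P_apply, if_neg hab, F1_V a ha]
  have h : F2 a * F2 b = 0 := by
    by_cases h95 : (a : ℕ) = 95
    · have : 96 ≤ (b : ℕ) := by
        have : (a : ℕ) ≠ b := fun h => hab (Fin.ext h)
        omega
      rw [F2_V b this, mul_zero]
    · rw [F2_V a (by omega), zero_mul]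
  rw [h]
  ring

theorem s_mul_one (a b : Ix) (hab : a ≠ b) : s a = 1 ∨ s b = 1 := by
  by_cases h : (a : ℕ) = 95
  · right
    have : (b : ℕ) ≠ 95 := fun h' => hab (Fin.ext (h.trans h'.symm))
    simp [s, this]
  · left
    simp [s, h]

theorem dist_formula (a b : Ix) (ha : 95 ≤ (a : ℕ)) (hb : 95 ≤ (b : ℕ)) (hab : a ≠ b) :
    dist (φ a) (φ b) ^ 2 = (32 - 8 * (s a * s b) * (bit a b : ℝ)) / 96 := by
  rw [dist_φ_sq, diag_term a ha, diag_term b hb, offdiag_term a b ha hb hab]
  rcases s_mul_one a b hab with h | h <;> rw [h] <;> ring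

/-- The common large distance. -/
def D : ℝ := Real.sqrt (1 / 3)

theorem D_pos : 0 < D := Real.sqrt_pos.mpr (by norm_num)

theorem dist_eq_D (a b : Ix) (ha : 95 ≤ (a : ℕ)) (hb : 95 ≤ (b : ℕ)) (hab : a ≠ b)
    (h0 : bit a b = 0) : dist (φ a) (φ b) = D := by
  have h := dist_formula a b ha hb hab
  rw [h0] at h
  unfold D
  rw [eq_comm, Real.sqrt_eq_iff_mul_self_eq (by norm_num) dist_nonneg]
  simp only [Nat.cast_zero, mul_zero, sub_zero] at h
  nlinarith

theorem dist_le_D (a b : Ix) (ha : 95 ≤ (a : ℕ)) (hb : 95 ≤ (b : ℕ)) : dist (φ a) (φ b) ≤ D := by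
  by_cases hab : a = b
  · subst hab
    rw [dist_self]; exact D_pos.le
  · have h := dist_formula a b ha hb hab
    have hpos : 0 < s a * s b := mul_pos (s_pos a) (s_pos b)
    have hbit : (0 : ℝ) ≤ (bit a b : ℝ) := Nat.cast_nonneg _
    have hle : dist (φ a) (φ b) ^ 2 ≤ 1 / 3 := by
      rw [h]
      have : 0 ≤ 8 * (s a * s b) * (bit a b : ℝ) := by positivity
      linarith
    unfold D
    exact Real.le_sqrt_of_sq_le hle

/-- The vertex set of the construction. -/
def Vset : Finset Ix := Finset.univ.filter fun a => 95 ≤ (a : ℕ)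

theorem card_Vset : Vset.card = 321 := by
  decide +kernel

theorem mem_Vset (a : Ix) : a ∈ Vset ↔ 95 ≤ (a : ℕ) := by simp [Vset]

/-- Among any six vertices of `Vset` two are at distance exactly `D`. -/
theorem six_has_far_pair (S : Finset Ix) (hS : S ⊆ Vset) (hcard : S.card = 6) :
    ∃ a ∈ S, ∃ b ∈ S, dist (φ a) (φ b) = D := by
  by_contra hcon
  push Not at hcon
  refine noClique_V (S.image Fin.val) ?_ ?_ ?_
  · rw [Finset.card_image_of_injective _ Fin.val_injective, hcard]
  · intro k hk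
    obtain ⟨a, ha, rfl⟩ := Finset.mem_image.mp hk
    exact ⟨a.2, maskV_testBit a a.2 ((mem_Vset a).mp (hS ha))⟩
  · intro x hx y hy hxy
    obtain ⟨a, ha, rfl⟩ := Finset.mem_image.mp hx
    obtain ⟨b, hb, rfl⟩ := Finset.mem_image.mp hy
    have hab : a ≠ b := fun h => hxy (congrArg _ h)
    rw [← bit_eq_one_iff]
    have hle := bit_le_one a b
    by_contra hne
    have h0 : bit a b = 0 := by omega
    exact hcon a ha b hb (dist_eq_D a b ((mem_Vset a).mp (hS ha)) ((mem_Vset b).mp (hS hb)) hab h0)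

theorem main_cover :
    ∃ Y : Set (EuclideanSpace ℝ (Fin 63)), Y.Finite ∧ 0 < Metric.diam Y ∧
      ∀ c : Fin 64 → Set (EuclideanSpace ℝ (Fin 63)), Y ⊆ ⋃ i, c i →
        ∃ i, Metric.diam Y ≤ Metric.diam (Y ∩ c i) := by
  set Y : Set (EuclideanSpace ℝ (Fin 63)) := φ '' (Vset : Set Ix) with hY
  have hfin : Y.Finite := (Finset.finite_toSet Vset).image φ
  have hdiamle : Metric.diam Y ≤ D := by
    refine Metric.diam_le_of_forall_dist_le D_pos.le ?_
    rintro _ ⟨a, ha, rfl⟩ _ ⟨b, hb, rfl⟩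
    exact dist_le_D a b ((mem_Vset a).mp ha) ((mem_Vset b).mp hb)
  have hmem : ∀ a ∈ Vset, φ a ∈ Y := fun a ha => ⟨a, ha, rfl⟩
  refine ⟨Y, hfin, ?_, ?_⟩
  · obtain ⟨S, hS, hcard⟩ := Finset.exists_subset_card_eq (s := Vset) (n := 6)
      (by rw [card_Vset]; norm_num)
    obtain ⟨a, ha, b, hb, hd⟩ := six_has_far_pair S hS hcard
    have : dist (φ a) (φ b) ≤ Metric.diam Y :=
      Metric.dist_le_diam_of_mem hfin.isBounded (hmem a (hS ha)) (hmem b (hS hb))
    rw [hd] at this
    exact lt_of_lt_of_le D_pos this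
  · intro c hc
    have hχ : ∀ a : Ix, a ∈ Vset → ∃ i, φ a ∈ c i := by
      intro a ha
      exact Set.mem_iUnion.mp (hc (hmem a ha))
    classical
    let χ : Ix → Fin 64 := fun a => if h : a ∈ Vset then (hχ a h).choose else 0
    have hχ' : ∀ a ∈ Vset, φ a ∈ c (χ a) := by
      intro a ha
      simp only [χ, dif_pos ha]
      exact (hχ a ha).choose_spec
    obtain ⟨i, -, hi⟩ := Finset.exists_lt_card_fiber_of_mul_lt_card_of_maps_to
      (s := Vset) (t := (Finset.univ : Finset (Fin 64))) (f := χ) (n := 5)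
      (fun _ _ => Finset.mem_univ _) (by rw [card_Vset]; decide)
    obtain ⟨S, hS, hcard⟩ := Finset.exists_subset_card_eq (s := Vset.filter fun a => χ a = i) (n := 6)
      (by omega)
    have hSV : S ⊆ Vset := fun a ha => (Finset.mem_filter.mp (hS ha)).1
    obtain ⟨a, ha, b, hb, hd⟩ := six_has_far_pair S hSV hcard
    refine ⟨i, hdiamle.trans ?_⟩
    have hbdd : Bornology.IsBounded (Y ∩ c i) := (hfin.subset Set.inter_subset_left).isBounded
    have hai : χ a = i := (Finset.mem_filter.mp (hS ha)).2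
    have hbi : χ b = i := (Finset.mem_filter.mp (hS hb)).2
    have haY : φ a ∈ Y ∩ c i := ⟨hmem a (hSV ha), hai ▸ hχ' a (hSV ha)⟩
    have hbY : φ b ∈ Y ∩ c i := ⟨hmem b (hSV hb), hbi ▸ hχ' b (hSV hb)⟩
    rw [← hd]
    exact Metric.dist_le_diam_of_mem hbdd haY hbY

/-- Borsuk's conjecture fails in dimension 63: a finite set of `R^63` of positive diameter that is
not a union of 64 sets of strictly smaller diameter. -/
theorem main :
    ∃ Y : Set (EuclideanSpace ℝ (Fin 63)), Y.Finite ∧ 0 < Metric.diam Y ∧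
      ¬ ∃ c : Fin 64 → Set (EuclideanSpace ℝ (Fin 63)),
        Y = ⋃ i, c i ∧ ∀ i, Metric.diam (c i) < Metric.diam Y := by
  obtain ⟨Y, hfin, hpos, hcov⟩ := main_cover
  refine ⟨Y, hfin, hpos, ?_⟩
  rintro ⟨c, hY, hlt⟩
  obtain ⟨i, hi⟩ := hcov c hY.le
  have hsub : Y ∩ c i = c i := Set.inter_eq_right.mpr (by rw [hY]; exact Set.subset_iUnion c i)
  rw [hsub] at hi
  exact absurd (hlt i) (not_lt.mpr hi)

end

end Vale.Agent.Lib.P052
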